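import Vale.Agent.P241.H585.GSpace
import Mathlib.GroupTheory.PGroup
import Mathlib.GroupTheory.SpecificGroups.Cyclic
import Mathlib.GroupTheory.QuotientGroup.Basic

/-!
# P241, statement layer

The definitions which enter the final statement are those of this file, of
`P241/H585/GSpace.lean` (pointed compact `G`-spaces `X⁺`, finite `G`-cell spaces `GFC G X`, fixed
points `X.fix H`) and of `P251/T/Axioms.lean`, `P251/St/Base.lean`, `P251/St/Chrom.lean`.

* `RingA T`, `IsMoravaK S p n K` : associative ring spectra and Morava `K`-theories of height `n`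
  at an arbitrary prime `p`.
* `HasCyclicChain H s`, `ell H` : the number `ℓ(G, H)`.
* `Forces S K H n r` : `K(n+r)_* (X^H) = 0` implies `K(n)_* (X^G) = 0` for all finite `G`-cell
  spaces `X`; `loss S K H n` : the chromatic fixed point loss `r_n(G, H)`.
-/

open CategoryTheory MonoidalCategory OnePoint

noncomputable section

namespace Vale.Agent.P241.St

open Vale.Agent.P251.St Vale.Agent.P251.St.SHCat

/-! ### Morava `K`-theories at an arbitrary prime -/

section Morava

variable {T : SHCat}

/-- A homotopy associative ring spectrum (for `p = 2` the Morava `K`-theories are not homotopy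
commutative). -/
structure RingA (T : SHCat) where
  /-- the underlying spectrum -/
  obj : T.C
  [mon : MonObj obj]

attribute [instance] RingA.mon

/-- the multiplication -/
abbrev RingA.mul (K : RingA T) : Hom (ten K.obj K.obj) K.obj := MonObj.mul

/-- the unit -/
abbrev RingA.unit (K : RingA T) : Hom T.one K.obj := MonObj.one

/-- `π_k K = 0` unless `d` divides `k`, and `π_0 K = 𝔽_p`. -/
structure IsPeriodicFieldA (K : RingA T) (p : ℕ) (d : ℤ) : Prop where
  sparse : ∀ (k : ℤ) (f : Hom (sphere T k) K.obj), ¬ d ∣ k → f = 0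
  char : zmul p K.unit = 0
  ne : K.unit ≠ 0
  gen : ∀ f : Hom T.one K.obj, ∃ a : ℤ, f = zmul a K.unit

/-- `K` is the rational Eilenberg-Mac Lane spectrum: `π_* K = ℚ` in degree `0`. -/
structure IsRationalA (K : RingA T) : Prop where
  conc : ∀ (k : ℤ) (f : Hom (sphere T k) K.obj), k ≠ 0 → f = 0
  ne : K.unit ≠ 0
  div : ∀ m : ℤ, m ≠ 0 → Function.Bijective fun f : Hom T.one K.obj => zmul m f
  gen : ∀ f : Hom T.one K.obj, ∃ a m : ℤ, m ≠ 0 ∧ zmul m f = zmul a K.unit

variable (S : Susp T)

/-- The cohomology group `K^{2n}(X⁺)`. -/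
abbrev CohA (K : RingA T) (n : ℕ) (X : Space) : Type := Hom (S.obj X) (ten K.obj (S.obj (Cn n)))

variable {S}

/-- `z ∈ K^{2(n+m)}(X⁺ ∧ Y⁺)` is the external product of `x ∈ K^{2n}(X⁺)` and `y ∈ K^{2m}(Y⁺)`. -/
def IsCrossA {K : RingA T} {n m : ℕ} {X Y : Space} (x : CohA S K n X) (y : CohA S K m Y)
    (z : CohA S K (n + m) (X.prod Y)) : Prop :=
  ∀ g : Map ((Cn n).prod (Cn m)) (Cn (n + m)),
    (∀ (a : Fin n → ℂ) (b : Fin m → ℂ), g.toFun (Space.pt (X := (Cn n).prod (Cn m)) (a, b)) =
      Space.pt (X := Cn (n + m)) (Fin.append a b)) →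
    comp (S.mul X Y) z = comp (tenHom x y)
      (comp (exch K.obj (S.obj (Cn n)) K.obj (S.obj (Cn m)))
        (tenHom K.mul (comp (S.mul (Cn n) (Cn m)) (S.map g))))

/-- the image of a cohomology class under a map of ring spectra -/
abbrev push {R : RingSp T} {K : RingA T} (u : Hom R.obj K.obj) {n : ℕ} {X : Space}
    (x : Coh S R n X) : CohA S K n X :=
  comp x (tenHom u (ident (S.obj (Cn n))))

variable (S)

/-- `u : R ⟶ K` is a map from a commutative ring spectrum `R` with the complex orientation `o`.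
The `p`-series of the induced orientation of `K` is `[p](x) = v x ^ (N + 1)` modulo `x ^ (N + 2)`
with an invertible `v ∈ π_{2N} K`. Here `w ∈ K^{2N}(pt)` is the inverse of `v`; the equation
`x ^ (N + 1) = w [p](x)` is stated on the projective space of `ℂ^(N + 2)`: `e` is the zero section
of `N + 1` copies of the tautological line bundle, and `t` is the one of its `p`-th tensor
power. -/
def HasPSeriesA {R : RingSp T} (K : RingA T) (u : Hom R.obj K.obj) (p N : ℕ)
    (o : Oriented S R) : Prop :=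
  ∃ (v : Hom (S.obj (Cn N)) K.obj) (w : CohA S K N Pn),
    comp S.unit (comp w (comp (tenHom (ident K.obj) v) K.mul)) = K.unit ∧
      ∀ (e : Map (CP (Fin (N + 2))) (Th (N + 1) (Fin (N + 1) × Fin (N + 2))))
        (t : Map (CP (Fin (N + 2))) (Th 1 (Fin p → Fin (N + 2))))
        (q : Map (Pn.prod (CP (Fin (N + 2)))) (CP (Fin (N + 2)))),
        IsPair (fun (x : CPSet (Fin (N + 2))) i j => if i.1 = j.1 then x.1 i.2 j.2 else 0)
          (fun _ => 0) e →
        IsPair (fun (x : CPSet (Fin (N + 2))) i j => ∏ k, x.1 (i k) (j k)) (fun _ => 0) t →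
        (∀ x : (CP (Fin (N + 2))).carrier,
          q.toFun (Space.pt (X := Pn.prod (CP _)) ((), x)) = Space.pt x) →
        IsCrossA w (comp (S.map t) (push u (o.θ 1 _)))
          (comp (S.map q) (comp (S.map e) (push u (o.θ (N + 1) _))))

/-- `K` is a Morava `K`-theory of height `n` at the prime `p` (any prime): for `n ≥ 1` it is an
associative ring spectrum with `π_* K = 𝔽_p[v, v⁻¹]`, `|v| = 2 (p ^ n - 1)`, complex oriented
through a map `u : R ⟶ K` of ring spectra from a commutative complex oriented ring spectrum (such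
as `MU`, or `K` itself if `p` is odd) with a formal group of height `n`. -/
def IsMoravaK (p n : ℕ) (K : RingA T) : Prop :=
  if n = 0 then IsRationalA K else
    IsPeriodicFieldA K p (2 * ((p : ℤ) ^ n - 1)) ∧
      ∃ (R : RingSp T) (u : Hom R.obj K.obj) (_ : IsMonHom u) (o : Oriented S R),
        HasPSeriesA S K u p (p ^ n - 1) o

end Morava

/-! ### The number `ℓ(G, H)` and the chromatic fixed point loss -/

section Loss

variable {G : Type} [Group G]

/-- There is a chain `H = c 0 ⊴ c 1 ⊴ ⋯ ⊴ c s = G`, each group normal in the next, with cyclic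
quotients. -/
def HasCyclicChain (H : Subgroup G) (s : ℕ) : Prop :=
  ∃ c : ℕ → Subgroup G, c 0 = H ∧ c s = ⊤ ∧ ∀ i < s, c i ≤ c (i + 1) ∧
    ∃ _ : ((c i).subgroupOf (c (i + 1))).Normal,
      IsCyclic (↥(c (i + 1)) ⧸ (c i).subgroupOf (c (i + 1)))

/-- The number `ℓ(G, H)`. -/
def ell (H : Subgroup G) : ℕ := sInf {s | HasCyclicChain H s}

variable {T : SHCat} (S : Susp T)

/-- `K(n+r)_* (X^H) = 0` implies `K(n)_* (X^G) = 0` for all finite `G`-cell spaces `X`. -/
def Forces (K : ℕ → RingA T) (H : Subgroup G) (n r : ℕ) : Prop :=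
  ∀ X : GSpace G, GFC G X → Acyclic (K (n + r)).obj (S.obj (X.fix H)) →
    Acyclic (K n).obj (S.obj (X.fix ⊤))

/-- The chromatic fixed point loss `r_n(G, H)`. -/
def loss (K : ℕ → RingA T) (H : Subgroup G) (n : ℕ) : ℕ := sInf {r | Forces S K H n r}

/-- The fixed points of finite `G`-cell spaces are finite cell spaces (so that `S.obj` of them is
their suspension spectrum). -/
def FixFC : Prop :=
  ∀ (G : Type) [Group G] [Finite G] (X : GSpace G), GFC G X → ∀ V : Subgroup G, FC (X.fix V)

/-- The lower bound `r_n(G, H) ≥ ℓ(G, H)`: for every `r < ℓ(G, H)` there is a finite `G`-cell space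
`X` with `K(n+r)_* (X^H) = 0` and `K(n)_* (X^G) ≠ 0`. -/
def LowerBound (p : ℕ) : Prop :=
  ∀ K : ℕ → RingA T, (∀ i, IsMoravaK S p i (K i)) →
    ∀ (G : Type) [Group G] [Finite G], IsPGroup p G → ∀ (H : Subgroup G) (n r : ℕ), r < ell H →
      ∃ X : GSpace G, GFC G X ∧ Acyclic (K (n + r)).obj (S.obj (X.fix H)) ∧
        ¬ Acyclic (K n).obj (S.obj (X.fix ⊤))

/-- The upper bound: `Forces n ℓ(G, H)` holds. -/
def UpperBound (p : ℕ) : Prop :=
  ∀ K : ℕ → RingA T, (∀ i, IsMoravaK S p i (K i)) →
    ∀ (G : Type) [Group G] [Finite G], IsPGroup p G → ∀ (H : Subgroup G) (n : ℕ),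
      Forces S K H n (ell H)

/-- `r_n(G, H) = ℓ(G, H)`. -/
def Smith (p : ℕ) : Prop :=
  ∀ K : ℕ → RingA T, (∀ i, IsMoravaK S p i (K i)) →
    ∀ (G : Type) [Group G] [Finite G], IsPGroup p G → ∀ (H : Subgroup G) (n : ℕ),
      loss S K H n = ell H ∧ ∀ r, Forces S K H n r ↔ ell H ≤ r

variable {S} in
theorem LowerBound.le {p : ℕ} (h : LowerBound S p) {K : ℕ → RingA T}
    (hK : ∀ i, IsMoravaK S p i (K i)) {G : Type} [Group G] [Finite G] (hG : IsPGroup p G)
    {H : Subgroup G} {n r : ℕ} (hr : Forces S K H n r) : ell H ≤ r := by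
  by_contra hlt
  obtain ⟨X, hX, h1, h2⟩ := h K hK G hG H n r (not_le.mp hlt)
  exact h2 (hr X hX h1)

end Loss

/-! ### The homotopy commutative case -/

section Comm

variable {T : SHCat} {S : Susp T}

/-- forget the commutativity -/
abbrev toA (R : RingSp T) : RingA T := ⟨R.obj⟩

/-- The homotopy commutative Morava `K`-theories of `P251/St/Chrom.lean` (they exist at all odd
primes) are Morava `K`-theories in the present sense. -/
theorem isMoravaK_toA {p n : ℕ} {R : RingSp T} (h : IsMorava S R p n) :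
    IsMoravaK S p n (toA R) := by
  unfold IsMorava at h
  unfold IsMoravaK
  split_ifs at h ⊢ with hn
  · exact ⟨h.conc, h.ne, h.div, h.gen⟩
  · obtain ⟨h1, o, v, w, h2, h3⟩ := h
    refine ⟨⟨h1.sparse, h1.char, h1.ne, h1.gen⟩, R, ident R.obj,
      inferInstanceAs (IsMonHom (𝟙 R.obj)), o, v, w, h2, ?_⟩
    intro e t q he ht hq
    have hp : ∀ {n : ℕ} {X : Space} (x : Coh S R n X),
        push (K := toA R) (ident R.obj) x = x := by
      intro n X x
      change x ≫ (𝟙 _ ⊗ₘ 𝟙 _) = x
      rw [id_tensorHom_id, Category.comp_id]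
    rw [hp, hp]
    exact h3 e t q he ht hq

end Comm

end Vale.Agent.P241.St
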